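import Mathlib

/-!
# P043: the periodic tiling conjecture for skew prisms and for products
-/

namespace Vale.Agent.P043

/-- `A ⊕ F = G`: every element is `a + f` for exactly one pair `a ∈ A`, `f ∈ F`. -/
def Tiling {G : Type} [AddCommGroup G] (A F : Set G) : Prop :=
  ∀ x : G, ∃! p : G × G, p.1 ∈ A ∧ p.2 ∈ F ∧ p.1 + p.2 = x

/-- Translational tiles. -/
def IsTile {G : Type} [AddCommGroup G] (F : Set G) : Prop := ∃ A, Tiling A F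

/-- Invariance under a subgroup of finite index. -/
def Periodic {G : Type} [AddCommGroup G] (A : Set G) : Prop :=
  ∃ H : AddSubgroup G, H.FiniteIndex ∧ ∀ h ∈ H, ∀ a, a + h ∈ A ↔ a ∈ A

/-- Some tiling by `F` is periodic. -/
def HasPeriodicTiling {G : Type} [AddCommGroup G] (F : Set G) : Prop :=
  ∃ A, Tiling A F ∧ Periodic A

/-- The skew prism: its slice over the height `y ∈ F₂` is the translate `F₁ + g y`. -/
def skew {G₁ G₂ : Type} [AddCommGroup G₁] (F₁ : Set G₁) (F₂ : Set G₂) (g : G₂ → G₁) :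
    Set (G₁ × G₂) :=
  {p | p.2 ∈ F₂ ∧ p.1 - g p.2 ∈ F₁}

variable {G₁ G₂ : Type} [AddCommGroup G₁] [AddCommGroup G₂]

private lemma tile_fst {F₁ : Set G₁} {F₂ : Set G₂} {g : G₂ → G₁} (h : IsTile (skew F₁ F₂ g)) :
    IsTile F₁ := by
  obtain ⟨A, hA⟩ := h
  refine ⟨{a | ∃ s t y, (s, t) ∈ A ∧ y ∈ F₂ ∧ t + y = 0 ∧ a = s + g y}, fun x => ?_⟩
  obtain ⟨⟨⟨s, t⟩, ⟨u, y⟩⟩, ⟨h1, ⟨h2, h3⟩, h4⟩, huniq⟩ := hA (x, 0)
  simp only [Prod.mk_add_mk, Prod.mk.injEq] at h1 h2 h3 h4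
  refine ⟨(s + g y, u - g y), ⟨⟨s, t, y, h1, h2, h4.2, rfl⟩, h3, ?_⟩, ?_⟩
  · simp only
    rw [← h4.1]
    abel
  · rintro ⟨a, f⟩ ⟨⟨s', t', y', k1, k2, k3, k4⟩, k5, k6⟩
    simp only at k4 k5 k6
    have key := huniq ((s', t'), (f + g y', y')) ⟨k1, ⟨k2, by simpa using k5⟩, by
      simp only [Prod.mk_add_mk, Prod.mk.injEq]
      exact ⟨by rw [← k6, k4]; abel, k3⟩⟩
    simp only [Prod.mk.injEq] at key
    obtain ⟨⟨e1, e2⟩, e3, e4⟩ := key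
    subst e4
    simp only [Prod.mk.injEq]
    exact ⟨by rw [k4, e1], by rw [← e3]; abel⟩

private lemma tile_snd {F₁ : Set G₁} {F₂ : Set G₂} (h : IsTile (F₁ ×ˢ F₂)) : IsTile F₂ := by
  obtain ⟨A, hA⟩ := h
  refine ⟨{b | ∃ s f, (s, b) ∈ A ∧ f ∈ F₁ ∧ s + f = 0}, fun x => ?_⟩
  obtain ⟨⟨⟨s, t⟩, ⟨u, y⟩⟩, ⟨h1, ⟨h2, h3⟩, h4⟩, huniq⟩ := hA (0, x)
  simp only [Prod.mk_add_mk, Prod.mk.injEq] at h1 h2 h3 h4
  refine ⟨(t, y), ⟨⟨s, u, h1, h2, h4.1⟩, h3, h4.2⟩, ?_⟩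
  rintro ⟨b, f⟩ ⟨⟨s', f', k1, k2, k3⟩, k4, k5⟩
  simp only at k1 k4 k5
  have key := huniq ((s', b), (f', f)) ⟨k1, ⟨k2, k4⟩, by
    simp only [Prod.mk_add_mk, Prod.mk.injEq]
    exact ⟨k3, k5⟩⟩
  simp only [Prod.mk.injEq] at key
  obtain ⟨⟨_, e2⟩, _, e4⟩ := key
  rw [e2, e4]

private lemma tile_build {F₁ : Set G₁} {F₂ : Set G₂} (g : G₂ → G₁) (h₁ : HasPeriodicTiling F₁)
    (h₂ : HasPeriodicTiling F₂) : HasPeriodicTiling (skew F₁ F₂ g) := by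
  obtain ⟨A₁, t₁, H₁, i₁, p₁⟩ := h₁
  obtain ⟨A₂, t₂, H₂, i₂, p₂⟩ := h₂
  refine ⟨A₁ ×ˢ A₂, ?_, H₁.prod H₂, ?_, ?_⟩
  · rintro ⟨x, z⟩
    obtain ⟨⟨b, y⟩, ⟨hb, hy, hby⟩, hu⟩ := t₂ z
    simp only at hb hy hby
    obtain ⟨⟨a, f⟩, ⟨ha, hf, haf⟩, hv⟩ := t₁ (x - g y)
    simp only at ha hf haf
    refine ⟨((a, b), (f + g y, y)), ⟨⟨ha, hb⟩, ⟨hy, by simpa using hf⟩, ?_⟩, ?_⟩
    · simp only [Prod.mk_add_mk, Prod.mk.injEq]
      refine ⟨?_, hby⟩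
      rw [← add_assoc, haf]
      abel
    · rintro ⟨⟨a', b'⟩, ⟨u', y'⟩⟩ ⟨⟨k1, k2⟩, ⟨k3, k4⟩, k5⟩
      simp only [Prod.mk_add_mk, Prod.mk.injEq] at k1 k2 k3 k4 k5
      have e := hu (b', y') ⟨k2, k3, k5.2⟩
      simp only [Prod.mk.injEq] at e
      obtain ⟨rfl, rfl⟩ := e
      have e' := hv (a', u' - g y') ⟨k1, k4, by
        simp only
        rw [← k5.1]
        abel⟩
      simp only [Prod.mk.injEq] at e'
      obtain ⟨rfl, e3⟩ := e'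
      simp only [Prod.mk.injEq, true_and, and_true]
      rw [← e3]
      abel
  · refine ⟨?_⟩
    rw [AddSubgroup.index_prod]
    exact mul_ne_zero i₁.index_ne_zero i₂.index_ne_zero
  · rintro ⟨h, k⟩ hk ⟨a, b⟩
    have hh := AddSubgroup.mem_prod.1 hk
    constructor
    · rintro ⟨c1, c2⟩
      exact ⟨(p₁ h hh.1 a).1 c1, (p₂ k hh.2 b).1 c2⟩
    · rintro ⟨c1, c2⟩
      exact ⟨(p₁ h hh.1 a).2 c1, (p₂ k hh.2 b).2 c2⟩

/-- (1) A skew prism over `F₁`, whose set of heights `F₂` has a periodic tiling, tiles only if `F₁`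
tiles, and it has a periodic tiling as soon as `F₁` has one. (2) The periodic tiling conjecture for
two sets implies it for their product. -/
theorem _root_.Vale.Agent.Results.P043.SkewPrisms.result {G₁ G₂ : Type} [AddCommGroup G₁]
    [AddCommGroup G₂] (F₁ : Set G₁) (F₂ : Set G₂) :
    (∀ g : G₂ → G₁, HasPeriodicTiling F₂ → (IsTile F₁ → HasPeriodicTiling F₁) →
        (IsTile (skew F₁ F₂ g) ↔ IsTile F₁) ∧
        (IsTile (skew F₁ F₂ g) → HasPeriodicTiling (skew F₁ F₂ g))) ∧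
      ((IsTile F₁ → HasPeriodicTiling F₁) → (IsTile F₂ → HasPeriodicTiling F₂) →
        IsTile (F₁ ×ˢ F₂) → HasPeriodicTiling (F₁ ×ˢ F₂)) := by
  have hP : skew F₁ F₂ (fun _ => 0) = F₁ ×ˢ F₂ := by
    ext ⟨x, y⟩
    simp [skew, and_comm]
  refine ⟨fun g h₂ h₁ => ⟨⟨tile_fst, fun h => ?_⟩, fun h => tile_build g (h₁ (tile_fst h)) h₂⟩,
    fun h₁ h₂ h => ?_⟩
  · obtain ⟨A, hA, _⟩ := tile_build g (h₁ h) h₂
    exact ⟨A, hA⟩
  · rw [← hP]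
    refine tile_build _ (h₁ ?_) (h₂ (tile_snd h))
    rw [← hP] at h
    exact tile_fst h

end Vale.Agent.P043
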